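import Mathlib

set_option autoImplicit false

open MeasureTheory
open scoped ENNReal

namespace Vale.Agent.P189

/-- A measure-preserving Borel bijection between two Borel subsets of `X`. -/
structure PartialIso (X : Type) [MeasurableSpace X] (μ : Measure X) where
  toEquiv : PartialEquiv X X
  measurableSet_source : MeasurableSet toEquiv.source
  measurableSet_target : MeasurableSet toEquiv.target
  measurable_forward : Measurable (fun x : toEquiv.source => toEquiv (x : X))
  measurable_backward : Measurable (fun y : toEquiv.target => toEquiv.symm (y : X))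
  preserves : ∀ s : Set X, s ⊆ toEquiv.source → MeasurableSet s → μ (toEquiv '' s) = μ s

/-- A graphing of the orbit equivalence relation of an action of `Γ` on `X`: a countable family
of measure-preserving Borel bijections between Borel subsets, each moving every point inside its
orbit. -/
structure Graphing (Γ X : Type) [Group Γ] [MulAction Γ X] [MeasurableSpace X]
    (μ : Measure X) where
  map : ℕ → PartialIso X μ
  mem_orbit : ∀ i, ∀ x ∈ (map i).toEquiv.source, (map i).toEquiv x ∈ MulAction.orbit Γ x

/-- `y` is obtained from `x` by a finite chain of maps of the graphing and their inverses. -/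
def Graphing.Reaches {Γ X : Type} [Group Γ] [MulAction Γ X] [MeasurableSpace X]
    {μ : Measure X} (Φ : Graphing Γ X μ) : X → X → Prop :=
  Relation.ReflTransGen fun a b => ∃ i,
    (a ∈ (Φ.map i).toEquiv.source ∧ (Φ.map i).toEquiv a = b) ∨
    (a ∈ (Φ.map i).toEquiv.target ∧ (Φ.map i).toEquiv.symm a = b)

/-- The graphing generates the orbit relation: almost every point reaches its whole orbit. -/
def Graphing.Generates {Γ X : Type} [Group Γ] [MulAction Γ X] [MeasurableSpace X]
    {μ : Measure X} (Φ : Graphing Γ X μ) : Prop :=
  ∀ᵐ x ∂μ, ∀ y ∈ MulAction.orbit Γ x, Φ.Reaches x y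

/-- The cost of a graphing: the sum of the measures of the domains. -/
noncomputable def Graphing.cost {Γ X : Type} [Group Γ] [MulAction Γ X] [MeasurableSpace X]
    {μ : Measure X} (Φ : Graphing Γ X μ) : ℝ≥0∞ :=
  ∑' i, μ (Φ.map i).toEquiv.source

/-- The cost of the action: the infimum of the costs of the generating graphings of its orbit
equivalence relation. -/
noncomputable def actionCost (Γ X : Type) [Group Γ] [MulAction Γ X] [MeasurableSpace X]
    (μ : Measure X) : ℝ≥0∞ :=
  ⨅ (Φ : Graphing Γ X μ) (_ : Φ.Generates), Φ.cost

/-- Essential freeness: every nontrivial element fixes a null set of points. -/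
def EssentiallyFree (Γ X : Type) [Group Γ] [MulAction Γ X] [MeasurableSpace X]
    (μ : Measure X) : Prop :=
  ∀ g : Γ, g ≠ 1 → μ {x : X | g • x = x} = 0

/-- `Γ` has fixed price `c`: every essentially free p.m.p. action of `Γ` on a standard
probability space has cost `c`. -/
def HasFixedPrice (Γ : Type) [Group Γ] (c : ℝ≥0∞) : Prop :=
  ∀ (X : Type) [MeasurableSpace X] [StandardBorelSpace X] (μ : Measure X)
    [IsProbabilityMeasure μ] [MulAction Γ X] [MeasurableConstSMul Γ X]
    [SMulInvariantMeasure Γ X μ], EssentiallyFree Γ X μ → actionCost Γ X μ = c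

end Vale.Agent.P189
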